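import Mathlib

/-!
# P038: the shift lemma (two commuting closure operators on `V × V`)

`shift_lemma`: for `B ⊆ U ⊆ V × V`, a Hall condition for the rows and a minimality condition for the columns
give the second order inequality
`m(AU) - m(AB) - m(U) + m(B) ≤ m(AEU) - m(AEB) - m(EU) + m(EB)`.
-/

open scoped Classical

namespace Vale.Agent.P038.H498

noncomputable section

variable {V : Type*} [Fintype V]

/-- weight of a set -/
def wt (u : V → ℝ) (S : Set V) : ℝ := ∑ x, if x ∈ S then u x else 0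

theorem wt_union_inter (u : V → ℝ) (S T : Set V) :
    wt u (S ∪ T) + wt u (S ∩ T) = wt u S + wt u T := by
  unfold wt
  rw [← Finset.sum_add_distrib, ← Finset.sum_add_distrib]
  refine Finset.sum_congr rfl fun x _ => ?_
  by_cases h1 : x ∈ S <;> by_cases h2 : x ∈ T <;> simp [h1, h2]

theorem wt_mono {u : V → ℝ} (hu : ∀ x, 0 ≤ u x) {S T : Set V} (h : S ⊆ T) : wt u S ≤ wt u T := by
  unfold wt
  refine Finset.sum_le_sum fun x _ => ?_
  by_cases h1 : x ∈ S
  · simp [h1, h h1]
  · by_cases h2 : x ∈ T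
    · simp [h1, h2, hu x]
    · simp [h1, h2]

theorem wt_diff (u : V → ℝ) {S T : Set V} (h : S ⊆ T) : wt u (T \ S) = wt u T - wt u S := by
  unfold wt
  rw [← Finset.sum_sub_distrib]
  refine Finset.sum_congr rfl fun x _ => ?_
  by_cases h1 : x ∈ S
  · simp [h1, h h1]
  · by_cases h2 : x ∈ T <;> simp [h1, h2]

theorem wt_empty (u : V → ℝ) : wt u ∅ = 0 := by simp [wt]

theorem wt_insert (u : V → ℝ) {z : V} {S : Set V} (h : z ∉ S) : wt u (insert z S) = u z + wt u S := by
  have h1 : insert z S \ S = {z} := by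
    ext x; simp only [Set.mem_sdiff, Set.mem_insert_iff, Set.mem_singleton_iff]
    constructor
    · rintro ⟨h1 | h1, h2⟩
      · exact h1
      · exact absurd h1 h2
    · rintro rfl; exact ⟨Or.inl rfl, h⟩
  have h2 := wt_diff u (Set.subset_insert z S)
  rw [h1] at h2
  have h3 : wt u {z} = u z := by simp [wt]
  linarith

theorem wt_nonneg {u : V → ℝ} (hu : ∀ x, 0 ≤ u x) (S : Set V) : 0 ≤ wt u S := by
  rw [← wt_empty u]; exact wt_mono hu (Set.empty_subset S)

theorem wt_union_disj (u : V → ℝ) {S T : Set V} (h : Disjoint S T) :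
    wt u (S ∪ T) = wt u S + wt u T := by
  have := wt_union_inter u S T
  rw [h.inter_eq, wt_empty] at this
  linarith

/-! ### layer cake -/

theorem integral_step {x M : ℝ} (h0 : 0 ≤ x) (hM : x ≤ M) :
    ∫ t in Set.Ioc 0 M, (if t < x then (1 : ℝ) else 0) = x := by
  have h1 : (fun t : ℝ => if t < x then (1 : ℝ) else 0) = Set.indicator (Set.Iio x) (fun _ => 1) := by
    ext t; simp [Set.indicator_apply]
  rw [h1, MeasureTheory.setIntegral_indicator measurableSet_Iio]
  have h2 : Set.Ioc 0 M ∩ Set.Iio x = Set.Ioo 0 x := by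
    ext t; simp only [Set.mem_inter_iff, Set.mem_Ioc, Set.mem_Iio, Set.mem_Ioo]
    constructor
    · rintro ⟨⟨a, _⟩, c⟩; exact ⟨a, c⟩
    · rintro ⟨a, c⟩; exact ⟨⟨a, by linarith⟩, c⟩
  rw [h2]
  simp [h0]

theorem step_integrable (x M : ℝ) :
    MeasureTheory.IntegrableOn (fun t : ℝ => if t < x then (1 : ℝ) else 0) (Set.Ioc 0 M) := by
  have h1 : (fun t : ℝ => if t < x then (1 : ℝ) else 0) = Set.indicator (Set.Iio x) (fun _ => 1) := by
    ext t; simp [Set.indicator_apply]
  rw [h1]
  exact (MeasureTheory.integrableOn_const (by simp)).indicator measurableSet_Iio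

theorem layer {v f g : V → ℝ} (hf : ∀ i, 0 ≤ f i) (hg : ∀ i, 0 ≤ g i)
    (h : ∀ t, 0 ≤ t → wt v {i | t < f i} ≤ wt v {i | t < g i}) :
    ∑ i, v i * f i ≤ ∑ i, v i * g i := by
  obtain ⟨M, hM⟩ : ∃ M : ℝ, ∀ i, f i ≤ M ∧ g i ≤ M := by
    refine ⟨∑ i, (f i + g i), fun i => ?_⟩
    have h1 : f i + g i ≤ ∑ i, (f i + g i) :=
      Finset.single_le_sum (f := fun i => f i + g i) (fun i _ => add_nonneg (hf i) (hg i))
        (Finset.mem_univ i)
    exact ⟨by linarith [hg i], by linarith [hf i]⟩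
  have key : ∀ F : V → ℝ, (∀ i, 0 ≤ F i) → (∀ i, F i ≤ M) →
      ∑ i, v i * F i = ∫ t in Set.Ioc 0 M, wt v {i | t < F i} := by
    intro F h0 hM
    have e1 : ∀ t : ℝ, wt v {i | t < F i} = ∑ i, v i * (if t < F i then (1 : ℝ) else 0) := by
      intro t; unfold wt
      refine Finset.sum_congr rfl fun i _ => ?_
      by_cases hh : t < F i <;> simp [hh]
    simp_rw [e1]
    rw [MeasureTheory.integral_finsetSum]
    · refine Finset.sum_congr rfl fun i _ => ?_
      rw [MeasureTheory.integral_const_mul, integral_step (h0 i) (hM i)]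
    · intro i _
      exact (step_integrable (F i) M).const_mul (v i)
  have integ : ∀ F : V → ℝ, MeasureTheory.IntegrableOn (fun t => wt v {i | t < F i}) (Set.Ioc 0 M) := by
    intro F
    have e1 : (fun t : ℝ => wt v {i | t < F i}) =
        fun t => ∑ i, v i * (if t < F i then (1 : ℝ) else 0) := by
      ext t; unfold wt
      refine Finset.sum_congr rfl fun i _ => ?_
      by_cases hh : t < F i <;> simp [hh]
    rw [e1]
    exact MeasureTheory.integrable_finsetSum _ fun i _ => (step_integrable (F i) M).const_mul (v i)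
  rw [key f hf fun i => (hM i).1, key g hg fun i => (hM i).2]
  exact MeasureTheory.setIntegral_mono_on (integ f) (integ g) measurableSet_Ioc
    fun t ht => h t ht.1.le

/-! ### the operators -/

/-- closed out-neighbourhood of a set -/
def Er (N : V → Set V) (T : Set V) : Set V := {y | ∃ x ∈ T, y ∈ N x}

/-- the vertices all of whose in-neighbours are in `T` -/
def Ar (N : V → Set V) (T : Set V) : Set V := {z | ∀ p, z ∈ N p → p ∈ T}

/-- in-neighbourhood of a set -/
def Nm (N : V → Set V) (S : Set V) : Set V := {p | ∃ z ∈ S, z ∈ N p}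

/-- column of a relation -/
def col (R : V → Set V) (b : V) : Set V := {a | b ∈ R a}

/-- row dilation -/
def E (N : V → Set V) (R : V → Set V) : V → Set V := fun a => Er N (R a)

/-- column erosion -/
def A (N : V → Set V) (R : V → Set V) : V → Set V := fun z => {b | ∀ p, z ∈ N p → b ∈ R p}

/-- product measure -/
def m (u v : V → ℝ) (R : V → Set V) : ℝ := ∑ a, u a * wt v (R a)

theorem m_col (u v : V → ℝ) (R : V → Set V) : m u v R = ∑ b, v b * wt u (col R b) := by
  unfold m wt
  simp_rw [Finset.mul_sum]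
  rw [Finset.sum_comm]
  refine Finset.sum_congr rfl fun b _ => Finset.sum_congr rfl fun a _ => ?_
  by_cases h : b ∈ R a <;> simp [col, h, mul_comm]

theorem col_A (N R : V → Set V) (b : V) : col (A N R) b = Ar N (col R b) := rfl

theorem Ar_mono (N : V → Set V) {S T : Set V} (h : S ⊆ T) : Ar N S ⊆ Ar N T :=
  fun _ hz p hp => h (hz p hp)

theorem Er_mono (N : V → Set V) {S T : Set V} (h : S ⊆ T) : Er N S ⊆ Er N T := by
  rintro y ⟨x, hx, hy⟩; exact ⟨x, h hx, hy⟩

theorem cA_sub (N : V → Set V) {u : V → ℝ} (hu : ∀ x, 0 ≤ u x) (S T : Set V) :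
    (wt u (S ∪ T) - wt u (Ar N (S ∪ T))) + (wt u (S ∩ T) - wt u (Ar N (S ∩ T)))
      ≤ (wt u S - wt u (Ar N S)) + (wt u T - wt u (Ar N T)) := by
  have h1 := wt_union_inter u S T
  have h2 := wt_union_inter u (Ar N S) (Ar N T)
  have h3 : wt u (Ar N S ∪ Ar N T) ≤ wt u (Ar N (S ∪ T)) :=
    wt_mono hu (Set.union_subset (Ar_mono N Set.subset_union_left) (Ar_mono N Set.subset_union_right))
  have h4 : Ar N S ∩ Ar N T = Ar N (S ∩ T) := by
    ext z; constructor
    · rintro ⟨a, b⟩ p hp; exact ⟨a p hp, b p hp⟩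
    · intro a; exact ⟨fun p hp => (a p hp).1, fun p hp => (a p hp).2⟩
  rw [h4] at h2
  linarith

/-- Step (1): column minimality passes to `E`. -/
theorem step1 (N : V → Set V) {u : V → ℝ} (hu : ∀ x, 0 ≤ u x) {B U : V → Set V}
    (H2 : ∀ b (T : Set V), col B b ⊆ T → T ⊆ col U b →
      wt u (col U b) - wt u (Ar N (col U b)) ≤ wt u T - wt u (Ar N T))
    (y : V) (T : Set V) (hT : col (E N B) y ⊆ T) (hT' : T ⊆ col (E N U) y)
    (hBU : ∀ a, B a ⊆ U a) :
    wt u (col (E N U) y) - wt u (Ar N (col (E N U) y)) ≤ wt u T - wt u (Ar N T) := by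
  have key : ∀ F : Finset V, (∀ x ∈ F, y ∈ N x) →
      wt u (T ∪ {a | ∃ x ∈ F, x ∈ U a}) - wt u (Ar N (T ∪ {a | ∃ x ∈ F, x ∈ U a}))
        ≤ wt u T - wt u (Ar N T) := by
    intro F
    induction F using Finset.induction_on with
    | empty => intro _; simp
    | insert x F hx ih =>
      intro hF
      have ih' := ih fun x' hx' => hF x' (Finset.mem_insert_of_mem hx')
      set T' : Set V := T ∪ {a | ∃ x ∈ F, x ∈ U a} with hT'd
      have e1 : T ∪ {a | ∃ x' ∈ insert x F, x' ∈ U a} = T' ∪ col U x := by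
        ext a
        simp only [hT'd, Set.mem_union, Set.mem_ofPred_eq, Finset.mem_insert, col]
        constructor
        · rintro (h | ⟨x', rfl | h1, h2⟩)
          · exact Or.inl (Or.inl h)
          · exact Or.inr h2
          · exact Or.inl (Or.inr ⟨x', h1, h2⟩)
        · rintro ((h | ⟨x', h1, h2⟩) | h)
          · exact Or.inl h
          · exact Or.inr ⟨x', Or.inr h1, h2⟩
          · exact Or.inr ⟨x, Or.inl rfl, h⟩
      rw [e1]
      have h1 := cA_sub N hu T' (col U x)
      have h2 := H2 x (T' ∩ col U x) (by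
        intro a ha
        have hxy : y ∈ N x := hF x (Finset.mem_insert_self x F)
        exact ⟨Or.inl (hT ⟨x, ha, hxy⟩), hBU a ha⟩) Set.inter_subset_right
      linarith
  have h := key (Finset.univ.filter fun x => y ∈ N x) (by intro x hx; simpa using hx)
  have e : T ∪ {a | ∃ x ∈ Finset.univ.filter (fun x => y ∈ N x), x ∈ U a} = col (E N U) y := by
    ext a
    constructor
    · rintro (h | ⟨x, h1, h2⟩)
      · exact hT' h
      · exact ⟨x, h2, by simpa using h1⟩
    · rintro ⟨x, h1, h2⟩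
      exact Or.inr ⟨x, by simpa using h2, h1⟩
  rw [e] at h
  exact h

/-- Step (2): the row Hall condition passes to `A`. -/
theorem step2 (N : V → Set V) {v : V → ℝ} (hv : ∀ x, 0 ≤ v x) {B U : V → Set V}
    (H1 : ∀ a (Q : Set V), Q ⊆ U a \ B a → wt v Q ≤ wt v (Er N Q \ Er N (B a)))
    (z : V) (Q : Set V) (hQ : Q ⊆ A N U z \ A N B z) :
    wt v Q ≤ wt v (Er N Q \ A N (E N B) z) := by
  have key : ∀ F : Finset V, (∀ p ∈ F, z ∈ N p) →
      wt v (Q \ {b | ∀ p ∈ F, b ∈ B p}) ≤ wt v (Er N Q \ {y | ∀ p ∈ F, y ∈ Er N (B p)}) := by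
    intro F
    induction F using Finset.induction_on with
    | empty =>
      intro _
      have h1 : Q \ {b | ∀ p ∈ (∅ : Finset V), b ∈ B p} = ∅ := by
        ext b; simp
      rw [h1, wt_empty]; exact wt_nonneg hv _
    | insert p F hp ih =>
      intro hF
      have ih' := ih fun p' hp' => hF p' (Finset.mem_insert_of_mem hp')
      have hzp : z ∈ N p := hF p (Finset.mem_insert_self p F)
      set K : Set V := {b | ∀ p ∈ F, b ∈ B p} with hK
      set L : Set V := {y | ∀ p ∈ F, y ∈ Er N (B p)} with hL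
      have hKL : Er N K ⊆ L := by
        rintro y ⟨x, hx, hy⟩ p' hp'
        exact ⟨x, hx p' hp', hy⟩
      have e1 : Q \ {b | ∀ p' ∈ insert p F, b ∈ B p'} = (Q \ K) ∪ ((Q ∩ K) \ B p) := by
        ext b
        simp only [Set.mem_sdiff, Set.mem_ofPred_eq, Finset.mem_insert, forall_eq_or_imp,
          Set.mem_union, Set.mem_inter_iff, hK]
        tauto
      have d1 : Disjoint (Q \ K) ((Q ∩ K) \ B p) := by
        rw [Set.disjoint_left]
        rintro b ⟨_, h1⟩ ⟨⟨_, h2⟩, _⟩
        exact h1 h2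
      rw [e1, wt_union_disj v d1]
      have h1 := H1 p ((Q ∩ K) \ B p) (by
        rintro b ⟨⟨h1, _⟩, h2⟩
        exact ⟨(hQ h1).1 p hzp, h2⟩)
      have h2 : (Er N Q \ L) ∪ (Er N ((Q ∩ K) \ B p) \ Er N (B p)) ⊆
          Er N Q \ {y | ∀ p' ∈ insert p F, y ∈ Er N (B p')} := by
        rintro y (⟨h1, h2⟩ | ⟨⟨x, hx, hy⟩, h2⟩)
        · exact ⟨h1, fun h => h2 fun p' hp' => h p' (Finset.mem_insert_of_mem hp')⟩
        · exact ⟨⟨x, hx.1.1, hy⟩, fun h => h2 (h p (Finset.mem_insert_self p F))⟩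
      have d2 : Disjoint (Er N Q \ L) (Er N ((Q ∩ K) \ B p) \ Er N (B p)) := by
        rw [Set.disjoint_left]
        rintro y ⟨_, h1⟩ ⟨⟨x, hx, hy⟩, _⟩
        exact h1 (hKL ⟨x, hx.1.2, hy⟩)
      have h3 := wt_mono hv h2
      rw [wt_union_disj v d2] at h3
      linarith
  have h := key (Finset.univ.filter fun p => z ∈ N p) (by intro x hx; simpa using hx)
  have e1 : Q \ {b | ∀ p ∈ Finset.univ.filter (fun p => z ∈ N p), b ∈ B p} = Q := by
    ext b
    constructor
    · exact fun h => h.1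
    · intro hb
      exact ⟨hb, fun h => (hQ hb).2 fun p hp => h p (by simpa using hp)⟩
  have e2 : {y | ∀ p ∈ Finset.univ.filter (fun p => z ∈ N p), y ∈ Er N (B p)} = A N (E N B) z := by
    ext y
    constructor
    · intro h p hp; exact h p (by simpa using hp)
    · intro h p hp; exact h p (by simpa using hp)
  rw [e1, e2] at h
  exact h

/-! ### the nullity function -/

def val (N : V → Set V) (u : V → ℝ) (P S : Set V) : ℝ := wt u S - wt u (Nm N S \ P)

theorem val_super (N : V → Set V) {u : V → ℝ} (hu : ∀ x, 0 ≤ u x) {P P' : Set V} (hP : P ⊆ P')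
    (S S' : Set V) :
    val N u P S + val N u P' S' ≤ val N u P' (S ∪ S') + val N u P (S ∩ S') := by
  unfold val
  have h1 := wt_union_inter u S S'
  have h2 := wt_union_inter u (Nm N S \ P) (Nm N S' \ P')
  have h3 := wt_union_inter u (Nm N (S ∪ S') \ P') (Nm N (S ∩ S') \ P)
  have h4 : wt u ((Nm N (S ∪ S') \ P') ∪ (Nm N (S ∩ S') \ P)) ≤
      wt u ((Nm N S \ P) ∪ (Nm N S' \ P')) := by
    refine wt_mono hu ?_
    rintro a (⟨⟨z, hz, h5⟩, h6⟩ | ⟨⟨z, hz, h5⟩, h6⟩)
    · rcases hz with hz | hz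
      · exact Or.inl ⟨⟨z, hz, h5⟩, fun h => h6 (hP h)⟩
      · exact Or.inr ⟨⟨z, hz, h5⟩, h6⟩
    · exact Or.inl ⟨⟨z, hz.1, h5⟩, h6⟩
  have h5 : wt u ((Nm N (S ∪ S') \ P') ∩ (Nm N (S ∩ S') \ P)) ≤
      wt u ((Nm N S \ P) ∩ (Nm N S' \ P')) := by
    refine wt_mono hu ?_
    rintro a ⟨⟨_, h6⟩, ⟨z, hz, h7⟩, h8⟩
    exact ⟨⟨⟨z, hz.1, h7⟩, h8⟩, ⟨z, hz.2, h7⟩, h6⟩
  linarith

/-- nullity -/
def nul (N : V → Set V) (u : V → ℝ) (P Z : Set V) : ℝ := ⨆ S : {S : Set V // S ⊆ Z}, val N u P S

instance (Z : Set V) : Nonempty {S : Set V // S ⊆ Z} := ⟨⟨∅, Set.empty_subset Z⟩⟩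

theorem le_nul (N : V → Set V) (u : V → ℝ) (P : Set V) {S Z : Set V} (h : S ⊆ Z) :
    val N u P S ≤ nul N u P Z :=
  le_ciSup (f := fun S : {S : Set V // S ⊆ Z} => val N u P S) (Set.finite_range _).bddAbove ⟨S, h⟩

theorem exists_nul (N : V → Set V) (u : V → ℝ) (P Z : Set V) :
    ∃ S, S ⊆ Z ∧ nul N u P Z = val N u P S := by
  obtain ⟨S, hS⟩ := exists_eq_ciSup_of_finite (f := fun S : {S : Set V // S ⊆ Z} => val N u P S)
  exact ⟨S.1, S.2, hS.symm⟩

theorem nul_super (N : V → Set V) {u : V → ℝ} (hu : ∀ x, 0 ≤ u x) {P P' : Set V} (hP : P ⊆ P')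
    {Z Z' : Set V} (hZ : Z ⊆ Z') {z : V} (hz : z ∉ Z') :
    nul N u P (insert z Z) + nul N u P' Z' ≤ nul N u P' (insert z Z') + nul N u P Z := by
  obtain ⟨S, hS, eS⟩ := exists_nul N u P (insert z Z)
  obtain ⟨S', hS', eS'⟩ := exists_nul N u P' Z'
  rw [eS, eS']
  have h1 := val_super N hu hP S S'
  have h2 : S ∪ S' ⊆ insert z Z' := by
    rintro x (hx | hx)
    · rcases hS hx with h | h
      · exact Or.inl h
      · exact Or.inr (hZ h)
    · exact Or.inr (hS' hx)
  have h3 : S ∩ S' ⊆ Z := by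
    rintro x ⟨hx, hx'⟩
    rcases hS hx with h | h
    · subst h; exact absurd (hS' hx') hz
    · exact h
  have h4 := le_nul N u P' h2
  have h5 := le_nul N u P h3
  linarith

theorem nul_mono (N : V → Set V) (u : V → ℝ) (P : Set V) {Z Z' : Set V} (h : Z ⊆ Z') :
    nul N u P Z ≤ nul N u P Z' := by
  obtain ⟨S, hS, eS⟩ := exists_nul N u P Z
  rw [eS]
  exact le_nul N u P (hS.trans h)

theorem nul_insert_le (N : V → Set V) {u : V → ℝ} (hu : ∀ x, 0 ≤ u x) (P Z : Set V) (z : V) :
    nul N u P (insert z Z) ≤ nul N u P Z + u z := by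
  obtain ⟨S, hS, eS⟩ := exists_nul N u P (insert z Z)
  rw [eS]
  have h1 : S \ {z} ⊆ Z := by
    rintro x ⟨hx, hx'⟩
    rcases hS hx with h | h
    · exact absurd h hx'
    · exact h
  have h2 := le_nul N u P h1
  have h3 : wt u S ≤ wt u (insert z (S \ {z})) := by
    refine wt_mono hu ?_
    intro x hx
    by_cases h : x = z
    · exact Or.inl h
    · exact Or.inr ⟨hx, h⟩
  rw [wt_insert u (by simp)] at h3
  have h4 : wt u (Nm N (S \ {z}) \ P) ≤ wt u (Nm N S \ P) := by
    refine wt_mono hu ?_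
    rintro a ⟨⟨x, hx, h5⟩, h6⟩
    exact ⟨⟨x, hx.1, h5⟩, h6⟩
  unfold val at h2 ⊢
  linarith

theorem nul_insert_ge (N : V → Set V) {u : V → ℝ} (P : Set V) {Z : Set V} {z : V}
    (hz : z ∉ Z) (hzP : z ∈ Ar N P) :
    nul N u P Z + u z ≤ nul N u P (insert z Z) := by
  obtain ⟨S, hS, eS⟩ := exists_nul N u P Z
  rw [eS]
  have h1 : insert z S ⊆ insert z Z := Set.insert_subset_insert hS
  have h2 := le_nul N u P h1
  have h3 : Nm N (insert z S) \ P = Nm N S \ P := by
    ext a
    constructor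
    · rintro ⟨⟨x, hx | hx, h5⟩, h6⟩
      · subst hx; exact absurd (hzP a h5) h6
      · exact ⟨⟨x, hx, h5⟩, h6⟩
    · rintro ⟨⟨x, hx, h5⟩, h6⟩
      exact ⟨⟨x, Or.inr hx, h5⟩, h6⟩
  have h4 := wt_insert u (fun h => hz (hS h) : z ∉ S)
  unfold val at h2 ⊢
  rw [h3] at h2
  linarith

/-- Step (4): the increment inequality, summed over all `z`. -/
theorem step4 (N : V → Set V) {u v : V → ℝ} (hu : ∀ x, 0 ≤ u x) (hv : ∀ x, 0 ≤ v x)
    {B U : V → Set V} (hBU : ∀ a, B a ⊆ U a)
    (H1 : ∀ a (Q : Set V), Q ⊆ U a \ B a → wt v Q ≤ wt v (Er N Q \ Er N (B a)))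
    (Z : Finset V) :
    ∑ b, v b * (nul N u (col B b) (↑Z ∩ Ar N (col U b)) - wt u (↑Z ∩ Ar N (col B b))) ≤
      ∑ y, v y * (nul N u (col (E N B) y) (↑Z ∩ Ar N (col (E N U) y))
        - wt u (↑Z ∩ Ar N (col (E N B) y))) := by
  induction Z using Finset.induction_on with
  | empty =>
    simp only [Finset.coe_empty, Set.empty_inter, wt_empty, sub_zero]
    have h0 : ∀ P : Set V, nul N u P ∅ = 0 := by
      intro P
      obtain ⟨S, hS, eS⟩ := exists_nul N u P ∅
      have : S = ∅ := Set.subset_eq_empty hS rfl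
      rw [eS, this]
      unfold val
      have : Nm N (∅ : Set V) \ P = ∅ := by
        ext x; simp [Nm]
      rw [this, wt_empty]; simp
    simp [h0]
  | insert z Z hz ih =>
    have hz' : z ∉ (↑Z : Set V) := by simpa using hz
    -- the increments
    set lb : V → ℝ := fun b => nul N u (col B b) (insert z (↑Z ∩ Ar N (col U b)))
      - nul N u (col B b) (↑Z ∩ Ar N (col U b)) with hlb
    set ly : V → ℝ := fun y => nul N u (col (E N B) y) (insert z (↑Z ∩ Ar N (col (E N U) y)))
      - nul N u (col (E N B) y) (↑Z ∩ Ar N (col (E N U) y)) with hly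
    set f : V → ℝ := fun b => if b ∈ A N U z \ A N B z then lb b else 0 with hf
    set g : V → ℝ := fun y => if y ∈ A N (E N U) z \ A N (E N B) z then ly y else 0 with hg
    have lb0 : ∀ b, 0 ≤ lb b := fun b => sub_nonneg.2 (nul_mono N u _ (Set.subset_insert _ _))
    have ly0 : ∀ b, 0 ≤ ly b := fun b => sub_nonneg.2 (nul_mono N u _ (Set.subset_insert _ _))
    have f0 : ∀ b, 0 ≤ f b := by
      intro b; simp only [hf]; split_ifs
      · exact lb0 b
      · exact le_rfl
    have g0 : ∀ b, 0 ≤ g b := by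
      intro b; simp only [hg]; split_ifs
      · exact ly0 b
      · exact le_rfl
    have hins : ∀ T : Set V, z ∈ T → (↑(insert z Z) : Set V) ∩ T = insert z (↑Z ∩ T) := by
      intro T hT; ext x
      simp only [Finset.coe_insert, Set.mem_inter_iff, Set.mem_insert_iff]
      constructor
      · rintro ⟨h | h, h'⟩
        · exact Or.inl h
        · exact Or.inr ⟨h, h'⟩
      · rintro (h | ⟨h, h'⟩)
        · exact ⟨Or.inl h, h ▸ hT⟩
        · exact ⟨Or.inr h, h'⟩
    have hnot : ∀ T : Set V, z ∉ T → (↑(insert z Z) : Set V) ∩ T = ↑Z ∩ T := by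
      intro T hT; ext x
      simp only [Finset.coe_insert, Set.mem_inter_iff, Set.mem_insert_iff]
      constructor
      · rintro ⟨h | h, h'⟩
        · exact absurd (h ▸ h') hT
        · exact ⟨h, h'⟩
      · rintro ⟨h, h'⟩; exact ⟨Or.inr h, h'⟩
    have hzn : ∀ T : Set V, z ∉ (↑Z : Set V) ∩ T := fun T h => hz' h.1
    -- layer cake
    have main : ∑ b, v b * f b ≤ ∑ y, v y * g y := by
      refine layer f0 g0 fun t ht => ?_
      have hQ : {b | t < f b} ⊆ A N U z \ A N B z := by
        intro b hb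
        by_contra hn
        have : f b = 0 := by simp only [hf]; rw [if_neg hn]
        have hb' : t < f b := hb
        rw [this] at hb'; linarith
      refine (step2 N hv H1 z _ hQ).trans (wt_mono hv ?_)
      rintro y ⟨⟨b, hb, hy⟩, hny⟩
      have hb2 := hQ hb
      have hb1 : t < lb b := by
        have h : t < f b := hb
        simp only [hf] at h
        rwa [if_pos hb2] at h
      have hy1 : y ∈ A N (E N U) z := fun p hp => ⟨b, hb2.1 p hp, hy⟩
      have hg1 : g y = ly y := by simp only [hg]; rw [if_pos ⟨hy1, hny⟩]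
      have hcc : col U b ⊆ col (E N U) y := fun a ha => ⟨b, ha, hy⟩
      have hcB : col B b ⊆ col (E N B) y := fun a ha => ⟨b, ha, hy⟩
      have hsup := nul_super N hu hcB
        (Set.inter_subset_inter_right (↑Z : Set V) (Ar_mono N hcc)) (hzn (Ar N (col (E N U) y)))
      have hle : lb b ≤ ly y := by simp only [hlb, hly]; linarith
      show t < g y
      rw [hg1]; linarith
    -- comparison of the increments
    have hL : ∀ b, nul N u (col B b) (↑(insert z Z) ∩ Ar N (col U b))
        - wt u (↑(insert z Z) ∩ Ar N (col B b)) ≤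
        (nul N u (col B b) (↑Z ∩ Ar N (col U b)) - wt u (↑Z ∩ Ar N (col B b))) + f b := by
      intro b
      by_cases h1 : z ∈ Ar N (col U b)
      · rw [hins _ h1]
        by_cases h2 : z ∈ Ar N (col B b)
        · rw [hins _ h2, wt_insert u (hzn _)]
          have := nul_insert_le N hu (col B b) (↑Z ∩ Ar N (col U b)) z
          have := f0 b
          linarith
        · rw [hnot _ h2]
          have hfb : f b = lb b := by simp only [hf]; rw [if_pos ⟨h1, h2⟩]
          rw [hfb]; simp only [hlb]; linarith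
      · rw [hnot _ h1]
        have h3 : wt u (↑Z ∩ Ar N (col B b)) ≤ wt u (↑(insert z Z) ∩ Ar N (col B b)) := by
          refine wt_mono hu (Set.inter_subset_inter_left _ ?_)
          simp
        have := f0 b
        linarith
    have hR : ∀ y, (nul N u (col (E N B) y) (↑Z ∩ Ar N (col (E N U) y))
        - wt u (↑Z ∩ Ar N (col (E N B) y))) + g y ≤
        nul N u (col (E N B) y) (↑(insert z Z) ∩ Ar N (col (E N U) y))
        - wt u (↑(insert z Z) ∩ Ar N (col (E N B) y)) := by
      intro y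
      by_cases h1 : z ∈ Ar N (col (E N B) y)
      · have hgy : g y = 0 := by simp only [hg]; rw [if_neg (fun h => h.2 h1)]
        rw [hins _ h1, wt_insert u (hzn _), hgy]
        by_cases h2 : z ∈ Ar N (col (E N U) y)
        · rw [hins _ h2]
          have := nul_insert_ge N (u := u) (col (E N B) y) (hzn (Ar N (col (E N U) y))) h1
          linarith
        · exact absurd (Ar_mono N (fun a ha => Er_mono N (hBU a) ha :
            col (E N B) y ⊆ col (E N U) y) h1) h2
      · rw [hnot _ h1]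
        by_cases h2 : z ∈ Ar N (col (E N U) y)
        · rw [hins _ h2]
          have hgy : g y = ly y := by simp only [hg]; rw [if_pos ⟨h2, h1⟩]
          rw [hgy]; simp only [hly]; linarith
        · have hgy : g y = 0 := by simp only [hg]; rw [if_neg (fun h => h2 h.1)]
          rw [hnot _ h2, hgy]; linarith
    calc ∑ b, v b * (nul N u (col B b) (↑(insert z Z) ∩ Ar N (col U b))
          - wt u (↑(insert z Z) ∩ Ar N (col B b)))
        ≤ ∑ b, (v b * (nul N u (col B b) (↑Z ∩ Ar N (col U b)) - wt u (↑Z ∩ Ar N (col B b)))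
            + v b * f b) := by
          refine Finset.sum_le_sum fun b _ => ?_
          have := mul_le_mul_of_nonneg_left (hL b) (hv b)
          rw [mul_add] at this; exact this
      _ = ∑ b, v b * (nul N u (col B b) (↑Z ∩ Ar N (col U b)) - wt u (↑Z ∩ Ar N (col B b)))
            + ∑ b, v b * f b := Finset.sum_add_distrib
      _ ≤ ∑ y, v y * (nul N u (col (E N B) y) (↑Z ∩ Ar N (col (E N U) y))
            - wt u (↑Z ∩ Ar N (col (E N B) y))) + ∑ y, v y * g y := add_le_add ih main
      _ = ∑ y, (v y * (nul N u (col (E N B) y) (↑Z ∩ Ar N (col (E N U) y))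
            - wt u (↑Z ∩ Ar N (col (E N B) y))) + v y * g y) := Finset.sum_add_distrib.symm
      _ ≤ _ := by
          refine Finset.sum_le_sum fun y _ => ?_
          have := mul_le_mul_of_nonneg_left (hR y) (hv y)
          rw [mul_add] at this; exact this

/-- **The shift lemma.** -/
theorem shift_lemma (N : V → Set V) {u v : V → ℝ} (hu : ∀ x, 0 ≤ u x) (hv : ∀ x, 0 ≤ v x)
    {B U : V → Set V} (hBU : ∀ a, B a ⊆ U a)
    (H1 : ∀ a (Q : Set V), Q ⊆ U a \ B a → wt v Q ≤ wt v (Er N Q \ Er N (B a)))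
    (H2 : ∀ b (T : Set V), col B b ⊆ T → T ⊆ col U b →
      wt u (col U b) - wt u (Ar N (col U b)) ≤ wt u T - wt u (Ar N T)) :
    m u v (A N U) - m u v (A N B) - m u v U + m u v B ≤
      m u v (A N (E N U)) - m u v (A N (E N B)) - m u v (E N U) + m u v (E N B) := by
  have h4 := step4 N hu hv hBU H1 (Finset.univ : Finset V)
  simp only [Finset.coe_univ, Set.univ_inter] at h4
  have hcol : ∀ b, col B b ⊆ col U b := fun b a ha => hBU a ha
  have hcolE : ∀ y, col (E N B) y ⊆ col (E N U) y := fun y a ha => Er_mono N (hBU a) ha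
  have hl : ∀ b, wt u (Ar N (col U b)) - wt u (Ar N (col B b)) - wt u (col U b) + wt u (col B b)
      ≤ nul N u (col B b) (Ar N (col U b)) - wt u (Ar N (col B b)) := by
    intro b
    have h1 := le_nul N u (col B b) (le_refl (Ar N (col U b)))
    have h2 : wt u (Nm N (Ar N (col U b)) \ col B b) ≤ wt u (col U b \ col B b) := by
      refine wt_mono hu ?_
      rintro a ⟨⟨x, hx, h5⟩, h6⟩
      exact ⟨hx a h5, h6⟩
    rw [wt_diff u (hcol b)] at h2
    unfold val at h1
    linarith
  have hr : ∀ y, nul N u (col (E N B) y) (Ar N (col (E N U) y)) - wt u (Ar N (col (E N B) y)) ≤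
      wt u (Ar N (col (E N U) y)) - wt u (Ar N (col (E N B) y)) - wt u (col (E N U) y)
        + wt u (col (E N B) y) := by
    intro y
    obtain ⟨S, hS, eS⟩ := exists_nul N u (col (E N B) y) (Ar N (col (E N U) y))
    rw [eS]
    have hT : col (E N B) y ∪ Nm N S ⊆ col (E N U) y := by
      refine Set.union_subset (hcolE y) ?_
      rintro a ⟨x, hx, h5⟩
      exact hS hx a h5
    have h1 := step1 N hu H2 y (col (E N B) y ∪ Nm N S) Set.subset_union_left hT hBU
    have h2 : wt u S ≤ wt u (Ar N (col (E N B) y ∪ Nm N S)) := by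
      refine wt_mono hu ?_
      intro x hx p hp
      exact Or.inr ⟨x, hx, hp⟩
    have h3 : wt u (col (E N B) y ∪ Nm N S) =
        wt u (col (E N B) y) + wt u (Nm N S \ col (E N B) y) := by
      rw [← wt_union_disj u Set.disjoint_sdiff_right, Set.union_sdiff_self]
    unfold val
    linarith
  rw [m_col u v (A N U), m_col u v (A N B), m_col u v U, m_col u v B, m_col u v (A N (E N U)),
    m_col u v (A N (E N B)), m_col u v (E N U), m_col u v (E N B)]
  simp only [col_A]
  calc ∑ b, v b * wt u (Ar N (col U b)) - ∑ b, v b * wt u (Ar N (col B b))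
        - ∑ b, v b * wt u (col U b) + ∑ b, v b * wt u (col B b)
      = ∑ b, v b * (wt u (Ar N (col U b)) - wt u (Ar N (col B b)) - wt u (col U b)
          + wt u (col B b)) := by
        rw [← Finset.sum_sub_distrib, ← Finset.sum_sub_distrib, ← Finset.sum_add_distrib]
        exact Finset.sum_congr rfl fun b _ => by ring
    _ ≤ ∑ b, v b * (nul N u (col B b) (Ar N (col U b)) - wt u (Ar N (col B b))) :=
        Finset.sum_le_sum fun b _ => mul_le_mul_of_nonneg_left (hl b) (hv b)
    _ ≤ _ := h4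
    _ ≤ ∑ y, v y * (wt u (Ar N (col (E N U) y)) - wt u (Ar N (col (E N B) y))
          - wt u (col (E N U) y) + wt u (col (E N B) y)) :=
        Finset.sum_le_sum fun y _ => mul_le_mul_of_nonneg_left (hr y) (hv y)
    _ = _ := by
        rw [← Finset.sum_sub_distrib, ← Finset.sum_sub_distrib, ← Finset.sum_add_distrib]
        exact Finset.sum_congr rfl fun b _ => by ring

end

end Vale.Agent.P038.H498
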